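import Vale.Agent.P361.Limit

namespace Vale.Agent.Results.P361.BlochLowerHalf

open Vale.Agent.P361 Filter Real

/-- The sharp one-sided half of Bloch's law: for every spin `S = s/2`, the magnetization deficit
is at least the ideal spin-wave one, asymptotically as `β → ∞`. -/
theorem result : ∀ s : ℕ, 1 ≤ s →
    (∀ β : ℝ, 0 < β → HasDerivWithinAt (pressure s β) (spontMag s β) (Set.Ioi 0) 0) ∧
    ∀ δ : ℝ, 0 < δ → ∀ᶠ β in atTop,
      (riemannZeta (3 / 2 : ℂ)).re / (8 * π ^ (3 / 2 : ℝ) * ((s : ℝ) / 2) ^ (3 / 2 : ℝ)) - δ <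
        β ^ (3 / 2 : ℝ) * ((s : ℝ) / 2 - spontMag s β) := by
  intro s hs
  exact ⟨fun β hβ => hasDeriv_spontMag hβ, fun δ hδ => bloch_lower hs δ hδ⟩

end Vale.Agent.Results.P361.BlochLowerHalf
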